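import Crest.Agent.R230.VI

/-!
# R230/Pos

A consequence of Brouwer's theorem.
`exists_vi` (Hartman–Stampacchia): let `P` be the nearest point map onto `K`
(`exists_norm_eq_iInf_of_complete_convex`, `norm_eq_iInf_iff_real_inner_le_zero`); it is `1`-Lipschitz.
The map `x ↦ P x - D (P x)` is continuous and bounded, so it has a fixed point `x`
(`Crest.Agent.R74.brouwer`, transported to `EuclideanSpace`); `T = P x` works.
`exists_pos`: choose `0 < ε < 1` with `(1 + C ε)/(n+1) < 1/n` (replace `C` by `|C|`), let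
`K = {T | (T - ε 1).PosSemidef ∧ trace T = n}` (compact, convex, nonempty, inside `PosDef`), viewed in
`EuclideanSpace ℝ (Fin n × Fin n)`, `D T = S T - (1/n) 1` (symmetric, trace `0`).  Let `T` solve the
variational inequality and let `u i` be an orthonormal eigenbasis of `T`
(`Matrix.IsHermitian.eigenvectorBasis`), eigenvalues `λ i ≥ ε` with sum `n`, `d i = u i ⬝ D u i`, `∑ d i = 0`.
If `λ i > ε`, testing with `T' = T - δ u i u iᵀ + δ v vᵀ ∈ K` gives `d i ≤ v ⬝ D v` for all unit `v`.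
If `λ i = ε` then `d i < 0` by hypothesis.  Some `λ i₀ > ε`.  If `d i₀ < 0` then all `d i < 0`
(for `λ i > ε`, `d i ≤ d i₀`), contradiction.  So `D` is positive semidefinite with trace `0`, i.e. `D = 0`
(`Matrix.PosSemidef.trace_eq_zero_iff`).
-/

set_option autoImplicit false
set_option linter.unusedSectionVars false
set_option linter.unusedVariables false

namespace Crest.Agent.R230

open MeasureTheory Metric Set Filter Topology
open scoped RealInnerProductSpace ENNReal Pointwise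

variable {n : ℕ} [NeZero n]

open Matrix

theorem pos_vi {K : Set (Matrix (Fin n) (Fin n) ℝ)} (hK : IsCompact K) (hc : Convex ℝ K)
    (hne : K.Nonempty) {D : Matrix (Fin n) (Fin n) ℝ → Matrix (Fin n) (Fin n) ℝ}
    (hD : ContinuousOn D K) :
    ∃ T ∈ K, ∀ T' ∈ K, 0 ≤ ∑ i, ∑ j, D T i j * (T' i j - T i j) := by
  let L : Matrix (Fin n) (Fin n) ℝ →ₗ[ℝ] EuclideanSpace ℝ (Fin n × Fin n) :=
    { toFun := fun T => WithLp.toLp 2 fun p => T p.1 p.2
      map_add' := fun _ _ => rfl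
      map_smul' := fun _ _ => rfl }
  let R : EuclideanSpace ℝ (Fin n × Fin n) →ₗ[ℝ] Matrix (Fin n) (Fin n) ℝ :=
    { toFun := fun x => Matrix.of fun i j => x (i, j)
      map_add' := fun _ _ => rfl
      map_smul' := fun _ _ => rfl }
  have hRL : ∀ T, R (L T) = T := fun _ => rfl
  have hL : Continuous L := L.continuous_of_finiteDimensional
  have hR : Continuous R := R.continuous_of_finiteDimensional
  have hcont : ContinuousOn (fun x => L (D (R x))) (L '' K) := by
    refine hL.comp_continuousOn (hD.comp hR.continuousOn ?_)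
    rintro _ ⟨T, hT, rfl⟩
    rwa [hRL]
  obtain ⟨_, ⟨T, hT, rfl⟩, h⟩ := exists_vi (hK.image hL) (hc.linear_image L) (hne.image L) hcont
  refine ⟨T, hT, fun T' hT' => ?_⟩
  have := h (L T') ⟨T', hT', rfl⟩
  rw [hRL, PiLp.inner_apply, Fintype.sum_prod_type] at this
  refine this.trans (le_of_eq ?_)
  refine Finset.sum_congr rfl fun i _ => Finset.sum_congr rfl fun j _ => ?_
  simp only [L, LinearMap.coe_mk, AddHom.coe_mk, PiLp.sub_apply, RCLike.inner_apply, conj_trivial]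
  ring

theorem pos_eig {T : Matrix (Fin n) (Fin n) ℝ} (hT : T.IsHermitian) :
    ∃ (u : Fin n → Fin n → ℝ) (lam : Fin n → ℝ), (∀ i, u i ⬝ᵥ u i = 1) ∧
      (∀ i, T *ᵥ u i = lam i • u i) ∧
      ∀ D : Matrix (Fin n) (Fin n) ℝ, D.trace = ∑ i, u i ⬝ᵥ (D *ᵥ u i) := by
  set U : Matrix (Fin n) (Fin n) ℝ := (hT.eigenvectorUnitary : Matrix (Fin n) (Fin n) ℝ) with hU
  have h1 : star U * U = 1 := Matrix.mem_unitaryGroup_iff'.mp hT.eigenvectorUnitary.2
  have h2 : U * star U = 1 := Matrix.mem_unitaryGroup_iff.mp hT.eigenvectorUnitary.2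
  refine ⟨fun i k => U k i, hT.eigenvalues, fun i => ?_, fun i => ?_, fun D => ?_⟩
  · have := congrFun (congrFun h1 i) i
    simpa [Matrix.mul_apply, dotProduct] using this
  · exact hT.mulVec_eigenvectorBasis i
  · have : D.trace = (star U * (D * U)).trace := by
      rw [Matrix.trace_mul_comm, Matrix.mul_assoc, h2, Matrix.mul_one]
    rw [this]
    simp [Matrix.trace, Matrix.mul_apply, dotProduct, Matrix.mulVec]

/-- The constraint set. -/
def posK (n : ℕ) (ε : ℝ) : Set (Matrix (Fin n) (Fin n) ℝ) :=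
  {T | (∀ i j, T i j = T j i) ∧ (∀ x : Fin n → ℝ, ε * (x ⬝ᵥ x) ≤ x ⬝ᵥ (T *ᵥ x)) ∧ T.trace = n}

theorem pos_herm {T : Matrix (Fin n) (Fin n) ℝ} (h : ∀ i j, T i j = T j i) : T.IsHermitian := by
  ext i j
  simp [h j i]

theorem pos_posDef {ε : ℝ} (hε : 0 < ε) {T : Matrix (Fin n) (Fin n) ℝ} (h : T ∈ posK n ε) :
    T.PosDef := by
  refine Matrix.PosDef.of_dotProduct_mulVec_pos (pos_herm h.1) fun x hx => ?_
  rw [star_trivial]
  refine lt_of_lt_of_le (mul_pos hε ?_) (h.2.1 x)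
  have := dotProduct_star_self_pos_iff.mpr hx
  rwa [star_trivial] at this

theorem pos_convex (ε : ℝ) : Convex ℝ (posK n ε) := by
  intro A hA B hB a b ha hb hab
  refine ⟨fun i j => ?_, fun x => ?_, ?_⟩
  · simp [hA.1 i j, hB.1 i j]
  · rw [Matrix.add_mulVec, Matrix.smul_mulVec, Matrix.smul_mulVec, dotProduct_add, dotProduct_smul,
      dotProduct_smul, smul_eq_mul, smul_eq_mul]
    have h1 := mul_le_mul_of_nonneg_left (hA.2.1 x) ha
    have h2 := mul_le_mul_of_nonneg_left (hB.2.1 x) hb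
    have h3 : ε * (x ⬝ᵥ x) = a * (ε * (x ⬝ᵥ x)) + b * (ε * (x ⬝ᵥ x)) := by
      rw [← add_mul, hab, one_mul]
    linarith
  · rw [Matrix.trace_add, Matrix.trace_smul, Matrix.trace_smul, hA.2.2, hB.2.2, smul_eq_mul,
      smul_eq_mul, ← add_mul, hab, one_mul]

theorem pos_nonneg (x : Fin n → ℝ) : 0 ≤ x ⬝ᵥ x :=
  Finset.sum_nonneg fun i _ => mul_self_nonneg _

theorem pos_compact {ε : ℝ} (hε : 0 ≤ ε) : IsCompact (posK n ε) := by
  have hbox : IsCompact (Set.univ.pi fun _ : Fin n => Set.univ.pi fun _ : Fin n =>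
      Set.Icc (-(n : ℝ)) n) :=
    isCompact_univ_pi fun _ => isCompact_univ_pi fun _ => isCompact_Icc
  have hcl : IsClosed (posK n ε) := by
    have e : posK n ε = (⋂ i, ⋂ j, {T : Matrix (Fin n) (Fin n) ℝ | T i j = T j i}) ∩
        ((⋂ x : Fin n → ℝ, {T : Matrix (Fin n) (Fin n) ℝ | ε * (x ⬝ᵥ x) ≤ x ⬝ᵥ (T *ᵥ x)}) ∩
          {T : Matrix (Fin n) (Fin n) ℝ | T.trace = n}) := by
      ext T; simp [posK]
    rw [e]
    refine IsClosed.inter (isClosed_iInter fun i => isClosed_iInter fun j => isClosed_eq ?_ ?_)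
      (IsClosed.inter (isClosed_iInter fun x => isClosed_le continuous_const ?_) (isClosed_eq ?_ ?_))
    · exact continuous_id.matrix_elem i j
    · exact continuous_id.matrix_elem j i
    · exact continuous_const.dotProduct (continuous_id.matrix_mulVec continuous_const)
    · exact continuous_id.matrix_trace
    · exact continuous_const
  refine IsCompact.of_isClosed_subset (X := Matrix (Fin n) (Fin n) ℝ) hbox hcl fun T hT => ?_
  have hq : ∀ x : Fin n → ℝ, 0 ≤ x ⬝ᵥ (T *ᵥ x) := fun x =>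
    (mul_nonneg hε (pos_nonneg x)).trans (hT.2.1 x)
  have hs : ∀ i j, Pi.single i (1 : ℝ) ⬝ᵥ (T *ᵥ Pi.single j 1) = T i j := by
    intro i j
    simp
  have hd : ∀ i, 0 ≤ T i i := fun i => by rw [← hs]; exact hq _
  have hd' : ∀ i, T i i ≤ n := fun i => by
    rw [← hT.2.2]
    exact Finset.single_le_sum (f := fun i => T i i) (fun j _ => hd j) (Finset.mem_univ i)
  intro i _ j _
  have h1 := hq (Pi.single i 1 + Pi.single j 1)
  have h2 := hq (Pi.single i 1 - Pi.single j 1)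
  rw [Matrix.mulVec_add, add_dotProduct, dotProduct_add, dotProduct_add, hs, hs, hs, hs] at h1
  rw [Matrix.mulVec_sub, sub_dotProduct, dotProduct_sub, dotProduct_sub, hs, hs, hs, hs] at h2
  have h3 := hT.1 i j
  have h4 := hd' i
  have h5 := hd' j
  constructor <;> linarith

theorem pos_one {ε : ℝ} (hε : ε ≤ 1) : (1 : Matrix (Fin n) (Fin n) ℝ) ∈ posK n ε := by
  refine ⟨fun i j => ?_, fun x => ?_, by simp⟩
  · simp [Matrix.one_apply, eq_comm]
  · rw [Matrix.one_mulVec]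
    exact mul_le_of_le_one_left (pos_nonneg x) hε

theorem pos_sym {T : Matrix (Fin n) (Fin n) ℝ} (h : ∀ i j, T i j = T j i) (x y : Fin n → ℝ) :
    x ⬝ᵥ (T *ᵥ y) = y ⬝ᵥ (T *ᵥ x) := by
  simp only [dotProduct, Matrix.mulVec, Finset.mul_sum]
  rw [Finset.sum_comm]
  refine Finset.sum_congr rfl fun i _ => Finset.sum_congr rfl fun j _ => ?_
  rw [h j i]; ring

theorem pos_rank (u x : Fin n → ℝ) : x ⬝ᵥ (vecMulVec u u *ᵥ x) = (u ⬝ᵥ x) ^ 2 := by
  simp only [dotProduct, Matrix.mulVec, vecMulVec_apply, Finset.mul_sum, sq, Finset.sum_mul]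
  refine Finset.sum_congr rfl fun i _ => Finset.sum_congr rfl fun j _ => ?_
  ring

theorem pos_test {ε lam : ℝ} {T : Matrix (Fin n) (Fin n) ℝ} (hT : T ∈ posK n ε) {u v : Fin n → ℝ}
    (hu : u ⬝ᵥ u = 1) (hv : v ⬝ᵥ v = 1) (he : T *ᵥ u = lam • u) (hl : ε ≤ lam) :
    T - (lam - ε) • vecMulVec u u + (lam - ε) • vecMulVec v v ∈ posK n ε := by
  refine ⟨fun i j => ?_, fun x => ?_, ?_⟩
  · simp [vecMulVec_apply, hT.1 i j, mul_comm]
  · rw [Matrix.add_mulVec, Matrix.sub_mulVec, Matrix.smul_mulVec, Matrix.smul_mulVec,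
      dotProduct_add, dotProduct_sub, dotProduct_smul, dotProduct_smul, pos_rank, pos_rank,
      smul_eq_mul, smul_eq_mul]
    set c := u ⬝ᵥ x with hc
    have h1 := hT.2.1 (x - c • u)
    have h2 : u ⬝ᵥ (T *ᵥ x) = lam * c := by
      rw [pos_sym hT.1, he, dotProduct_smul, dotProduct_comm, smul_eq_mul]
    simp only [Matrix.mulVec_sub, Matrix.mulVec_smul, he, sub_dotProduct, dotProduct_sub,
      dotProduct_smul, smul_dotProduct, smul_eq_mul, hu, h2, dotProduct_comm x u, ← hc] at h1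
    have h3 := mul_nonneg (sub_nonneg.mpr hl) (sq_nonneg (v ⬝ᵥ x))
    nlinarith
  · rw [Matrix.trace_add, Matrix.trace_sub, Matrix.trace_smul, Matrix.trace_smul,
      Matrix.trace_vecMulVec, Matrix.trace_vecMulVec, hu, hv, hT.2.2]
    ring

theorem pos_pair (D : Matrix (Fin n) (Fin n) ℝ) (u : Fin n → ℝ) :
    ∑ i, ∑ j, D i j * vecMulVec u u i j = u ⬝ᵥ (D *ᵥ u) := by
  simp only [dotProduct, Matrix.mulVec, vecMulVec_apply, Finset.mul_sum]
  refine Finset.sum_congr rfl fun i _ => Finset.sum_congr rfl fun j _ => ?_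
  ring

theorem exists_pos (S : Matrix (Fin n) (Fin n) ℝ → Matrix (Fin n) (Fin n) ℝ) (C : ℝ)
    (hc : ContinuousOn S {T | T.PosDef})
    (hs : ∀ T : Matrix (Fin n) (Fin n) ℝ, T.PosDef → (S T).IsSymm ∧ (S T).trace = 1)
    (hb : ∀ T : Matrix (Fin n) (Fin n) ℝ, T.PosDef → T.trace = n → ∀ (w : Fin n → ℝ) (ε : ℝ),
      w ⬝ᵥ w = 1 → 0 ≤ ε → T *ᵥ w = ε • w → w ⬝ᵥ (S T *ᵥ w) ≤ (1 + C * ε) / (n + 1)) :
    ∃ T : Matrix (Fin n) (Fin n) ℝ, T.PosDef ∧ S T = (1 / n : ℝ) • (1 : Matrix (Fin n) (Fin n) ℝ) := by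
  have hn : (0 : ℝ) < n := by exact_mod_cast NeZero.pos n
  have hn1 : (1 : ℝ) ≤ n := by exact_mod_cast NeZero.pos n
  set ε : ℝ := 1 / (2 * n * (|C| + 1)) with hεdef
  have hC := abs_nonneg C
  have hε : 0 < ε := by positivity
  have hε1 : ε < 1 := by
    rw [hεdef, div_lt_one (by positivity)]; nlinarith
  have hεC : (1 + C * ε) / (n + 1) < 1 / n := by
    rw [div_lt_div_iff₀ (by positivity) hn]
    have h1 : C * ε * n ≤ |C| * ε * n :=
      mul_le_mul_of_nonneg_right (mul_le_mul_of_nonneg_right (le_abs_self C) hε.le) hn.le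
    have h2 : (|C| + 1) * ε * n = 1 / 2 := by rw [hεdef]; field_simp
    have h3 : 0 < ε * n := by positivity
    nlinarith
  have hcD : ContinuousOn (fun T => S T - (1 / n : ℝ) • (1 : Matrix (Fin n) (Fin n) ℝ))
      (posK n ε) := (hc.mono fun T hT => pos_posDef hε hT).sub continuousOn_const
  obtain ⟨T, hT, hvi⟩ := pos_vi (pos_compact hε.le) (pos_convex ε) ⟨1, pos_one hε1.le⟩ hcD
  have hpd := pos_posDef hε hT
  refine ⟨T, hpd, ?_⟩
  set D := S T - (1 / n : ℝ) • (1 : Matrix (Fin n) (Fin n) ℝ) with hD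
  obtain ⟨u, lam, hu, he, htr⟩ := pos_eig hpd.1
  have hlam : ∀ i, u i ⬝ᵥ (T *ᵥ u i) = lam i := fun i => by
    rw [he, dotProduct_smul, hu, smul_eq_mul, mul_one]
  have hge : ∀ i, ε ≤ lam i := fun i => by
    have := hT.2.1 (u i)
    rwa [hu, mul_one, hlam] at this
  have hD0 : D.trace = 0 := by
    rw [hD, Matrix.trace_sub, (hs T hpd).2, Matrix.trace_smul, Matrix.trace_one, Fintype.card_fin,
      smul_eq_mul]
    field_simp
    ring
  have htest : ∀ i, ε < lam i → ∀ v : Fin n → ℝ, v ⬝ᵥ v = 1 → u i ⬝ᵥ (D *ᵥ u i) ≤ v ⬝ᵥ (D *ᵥ v) := by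
    intro i hi v hv
    have h1 := hvi _ (pos_test hT (hu i) hv (he i) hi.le)
    have h2 : ∑ a, ∑ b, D a b * ((T - (lam i - ε) • vecMulVec (u i) (u i)
        + (lam i - ε) • vecMulVec v v) a b - T a b)
        = (lam i - ε) * (v ⬝ᵥ (D *ᵥ v) - u i ⬝ᵥ (D *ᵥ u i)) := by
      rw [← pos_pair, ← pos_pair, ← Finset.sum_sub_distrib, Finset.mul_sum]
      refine Finset.sum_congr rfl fun a _ => ?_
      rw [← Finset.sum_sub_distrib, Finset.mul_sum]
      refine Finset.sum_congr rfl fun b _ => ?_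
      simp only [Matrix.add_apply, Matrix.sub_apply, Matrix.smul_apply, smul_eq_mul]
      ring
    rw [h2] at h1
    have := (mul_nonneg_iff_of_pos_left (sub_pos.mpr hi)).mp h1
    linarith
  have hneg : ∀ i, lam i = ε → u i ⬝ᵥ (D *ᵥ u i) < 0 := by
    intro i hi
    have h1 := hb T hpd hT.2.2 (u i) ε (hu i) hε.le (by rw [he, hi])
    rw [hD, Matrix.sub_mulVec, Matrix.smul_mulVec, Matrix.one_mulVec, dotProduct_sub,
      dotProduct_smul, hu, smul_eq_mul, mul_one]
    linarith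
  obtain ⟨i₀, hi₀⟩ : ∃ i, ε < lam i := by
    by_contra hcon
    push Not at hcon
    have h1 : T.trace ≤ ∑ _i : Fin n, ε := by
      rw [htr T]
      exact Finset.sum_le_sum fun i _ => by rw [hlam]; exact hcon i
    rw [hT.2.2, Finset.sum_const, Finset.card_univ, Fintype.card_fin, nsmul_eq_mul] at h1
    nlinarith
  have h0 : 0 ≤ u i₀ ⬝ᵥ (D *ᵥ u i₀) := by
    by_contra hcon
    push Not at hcon
    have h1 : ∑ i, u i ⬝ᵥ (D *ᵥ u i) < 0 := by
      refine Finset.sum_neg (fun i _ => ?_) Finset.univ_nonempty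
      rcases (hge i).lt_or_eq with h | h
      · exact (htest i h _ (hu i₀)).trans_lt hcon
      · exact hneg i h.symm
    rw [← htr D, hD0] at h1
    exact lt_irrefl _ h1
  have hpsd : D.PosSemidef := by
    refine Matrix.PosSemidef.of_dotProduct_mulVec_nonneg (pos_herm fun i j => ?_) fun x => ?_
    · have := (hs T hpd).1.apply j i
      simp [hD, this, Matrix.one_apply, eq_comm]
    · rw [star_trivial]
      rcases (pos_nonneg x).lt_or_eq with hx | hx
      · have hq : 0 < Real.sqrt (x ⬝ᵥ x) := Real.sqrt_pos.mpr hx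
        have h1 := h0.trans (htest i₀ hi₀ ((Real.sqrt (x ⬝ᵥ x))⁻¹ • x) (by
          rw [smul_dotProduct, dotProduct_smul, smul_eq_mul, smul_eq_mul, ← mul_assoc, ← mul_inv,
            Real.mul_self_sqrt hx.le, inv_mul_cancel₀ hx.ne']))
        rw [Matrix.mulVec_smul, smul_dotProduct, dotProduct_smul, smul_eq_mul, smul_eq_mul] at h1
        have h2 := inv_pos.mpr hq
        exact (mul_nonneg_iff_of_pos_left h2).mp ((mul_nonneg_iff_of_pos_left h2).mp h1)
      · rw [dotProduct_self_eq_zero.mp hx.symm, zero_dotProduct]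
  exact sub_eq_zero.mp (hpsd.trace_eq_zero_iff.mp hD0)

end Crest.Agent.R230
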