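import Crest.Agent.R230.Cont
import Crest.Agent.R230.Pos
import Crest.Agent.R230.SDT

/-!
# R230/Position

The position in which `N^(r+1)` has isotropic second moments.
For a positive definite matrix `T` let `L T : E n ≃L[ℝ] E n` be the corresponding symmetric map
(`exists_lin`; choose it, junk value `refl` otherwise), `N T` the minimiser for `μ.map (L T)`
(`exists_isMin`, `Good.map`), `s = r + 1`, `G = (N T)^s`, `S T i j = av (G p_i p_j) / av G`.
Apply `exists_pos`.  Continuity: `isMin_tendsto` along `𝓝[PosDef] T₀`.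
The bound: let `w` be a unit vector with `T w = ε w`.  `ibp` for `G` and `⟪·,w⟫` in the direction `w`:
`(s+n) av (G ⟪p,w⟫²) = av G + av (⟪∇G,w⟫ ⟪p,w⟫)`, `∇G = s N^r ∇N` a.e., and by `el1`
`av (N^r |⟪∇N,w⟫|) ≤ ∫ |⟪T z, w⟫| dμ = ∫ |⟪z, T w⟫| ≤ ε m`, `m = ∫ ‖z‖ dμ`.
Lower bound for `av G` (`moment_ge`): with `Λ = max N` on the sphere, `Λ ≤ n av N` (`max_le_av`),
`‖w‖ ≤ Λ dual N w`, so `∫ ‖w‖ dν ≤ Λ ∫ dual N ≤ Λ av N^r ≤ n av N av N^r ≤ n av N^(r+1)` (`el2`,
`sq_av_le` for `r = 1`).  Finally `∫ ‖T z‖ dμ ≥ ∫ |⟪z, T e_i⟫| ≥ c ‖T e_i‖ ≥ c T i i ≥ c` for some `i`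
because `trace T = n`.  So `w ⬝ S w ≤ (1 + s ε m n/c)/(s+n) ≤ (1 + C ε)/(n+1)`.
-/

set_option autoImplicit false
set_option linter.unusedSectionVars false
set_option linter.unusedVariables false

namespace Crest.Agent.R230

open MeasureTheory Metric Set Filter Topology
open scoped RealInnerProductSpace ENNReal Pointwise

variable {n : ℕ} [NeZero n]

open Matrix

theorem position_refl {v : E n} (hv : ‖v‖ = 1) :
    ∃ e : E n ≃ₗᵢ[ℝ] E n, ∀ u, e u = u - (2 * ⟪u, v⟫) • v :=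
  ⟨(ℝ ∙ v)ᗮ.reflection, fun u => by
    rw [Submodule.reflection_orthogonal_apply, Submodule.reflection_singleton_apply, hv,
      real_inner_comm]
    simp [two_smul, two_mul, add_smul]⟩

theorem position_le_av {N : E n → ℝ} (h : IsNorm N) {q : E n} (hq : ‖q‖ = 1) : N q ≤ n * av N := by
  obtain ⟨e, he⟩ := position_refl hq
  have hn : (0 : ℝ) < n := Nat.cast_pos.2 (NeZero.pos n)
  have hb := h.toSub.bd
  have h1 := av_mono (((bd_inner q).mul (bd_inner q)).const_mul (2 * N q))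
    (hb.add (hb.comp_isometry e)) fun p hp => by
    have a1 : |⟪p, q⟫| ≤ 1 := by simpa [hp, hq] using abs_real_inner_le_norm p q
    have a2 : N ((2 * ⟪p, q⟫) • q) ≤ N p + N (e p) := by
      rw [← h.neg (e p), he, neg_sub]
      simpa using h.add_le p ((2 * ⟪p, q⟫) • q - p)
    rw [h.smul_abs, abs_mul, abs_two] at a2
    have a3 : ⟪p, q⟫ * ⟪p, q⟫ ≤ |⟪p, q⟫| := by
      rw [← abs_mul_abs_self]
      exact mul_le_of_le_one_left (abs_nonneg _) a1
    nlinarith [mul_le_mul_of_nonneg_left a3 (h.toSub.nonneg q)]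
  rw [av_const_mul, av_inner_mul_inner, av_add hb (hb.comp_isometry e), av_comp_isometry N e,
    real_inner_self_eq_norm_sq, hq, one_pow, mul_one_div, div_le_iff₀ hn] at h1
  linarith

/-- for a unit vector `q` and the reflection `R p = p - 2 ⟪p,q⟫ q`:
`2 ⟪p,q⟫² N q ≤ 2 |⟪p,q⟫| N q = N (p - R p) ≤ N p + N (R p)`; average
(`av_inner_mul_inner`, `av_comp_isometry`) -/
theorem IsNorm.le_av {N : E n → ℝ} (h : IsNorm N) (x : E n) : N x ≤ n * av N * ‖x‖ := by
  rcases eq_or_ne x 0 with rfl | hx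
  · simp [h.toSub.zero]
  have h0 : 0 < ‖x‖ := norm_pos_iff.2 hx
  have h1 := position_le_av h (q := ‖x‖⁻¹ • x)
    (by rw [norm_smul, norm_inv, norm_norm, inv_mul_cancel₀ h0.ne'])
  rwa [h.smul _ _ (by positivity), inv_mul_le_iff₀' h0] at h1

theorem IsMin.moment_ge {r : ℕ} (hr : r ≤ 1) {ν : Measure (E n)} (hν : Good ν) {N : E n → ℝ}
    (h : IsMin r ν N) : ∫ w, ‖w‖ ∂ν ≤ n * av (fun p => N p ^ (r + 1)) := by
  have hS := h.1.toSub
  obtain ⟨c, C, hc, hb⟩ := hS.posH.bds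
  have h0 : 0 ≤ av N := av_nonneg fun p _ => hS.nonneg p
  have h1 : ∫ w, ‖w‖ ∂ν ≤ ∫ w, n * av N * dual N w ∂ν :=
    integral_mono (hν.integrable continuous_norm)
      ((hν.integrable hS.posH.sub_dual.continuous).const_mul _)
      fun w => (hS.posH.dual_bounds hc (fun x => ⟨(hb x).1, h.1.le_av x⟩) w).1
  rw [integral_const_mul] at h1
  refine h1.trans ((mul_le_mul_of_nonneg_left (h.el2 hr hν) (by positivity)).trans ?_)
  rw [mul_assoc]
  refine mul_le_mul_of_nonneg_left ?_ (Nat.cast_nonneg n)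
  obtain rfl | rfl : r = 0 ∨ r = 1 := by omega
  · simp [av_const]
  · simpa [sq] using sq_av_le hS.bd

theorem exists_lin {T : Matrix (Fin n) (Fin n) ℝ} (hT : T.PosDef) :
    ∃ L : E n ≃L[ℝ] E n, Symm L ∧ ∀ (x : E n) (i : Fin n), L x i = ∑ j, T i j * x j := by
  obtain ⟨u, hu⟩ := hT.isUnit.map (Matrix.toEuclideanCLM (𝕜 := ℝ) (n := Fin n))
  have key : ∀ (x : E n) (i : Fin n),
      ContinuousLinearEquiv.unitsEquiv ℝ (E n) u x i = ∑ j, T i j * x j := fun x i => by
    rw [ContinuousLinearEquiv.unitsEquiv_apply, hu]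
    rfl
  refine ⟨_, fun x y => ?_, key⟩
  simp only [inner_eq_sum, key, Finset.sum_mul, Finset.mul_sum]
  rw [Finset.sum_comm]
  refine Finset.sum_congr rfl fun i _ => Finset.sum_congr rfl fun j _ => ?_
  rw [← hT.isHermitian.apply j i, star_trivial]
  ring

theorem position_tendsto {α : Type*} {l : Filter α} [l.IsCountablyGenerated] {N : α → E n → ℝ}
    {N₀ : E n → ℝ} (hN : ∀ᶠ i in l, IsNorm (N i)) (h₀ : IsNorm N₀)
    (h : ∀ δ : ℝ, 0 < δ → ∀ᶠ i in l, ∀ x, |N i x - N₀ x| ≤ δ * ‖x‖) (k : ℕ) {g : E n → ℝ}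
    (hg : Bd g) :
    Tendsto (fun i => av (fun p => N i p ^ k * g p)) l (𝓝 (av fun p => N₀ p ^ k * g p)) := by
  obtain ⟨M, hM⟩ := hg.2
  obtain ⟨C, hC⟩ := h₀.toSub.bd.2
  refine tendsto_integral_filter_of_dominated_convergence (fun _ => (C + 1) ^ k * M) ?_ ?_
    (integrable_const _) ?_
  · exact hN.mono fun i hi => ((hi.toSub.bd.pow k).mul hg).integrable.aestronglyMeasurable
  · filter_upwards [h 1 one_pos] with i hi
    filter_upwards [ae_norm_sph] with p hp
    have a1 : |N i p| ≤ C + 1 := by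
      have := hi p
      rw [hp] at this
      linarith [abs_sub_abs_le_abs_sub (N i p) (N₀ p), hC p hp]
    rw [Real.norm_eq_abs, abs_mul, abs_pow]
    exact mul_le_mul (pow_le_pow_left₀ (abs_nonneg _) a1 k) (hM p hp) (abs_nonneg _)
      (pow_nonneg ((abs_nonneg _).trans a1) k)
  · filter_upwards [ae_norm_sph] with p hp
    refine (Tendsto.pow (Metric.tendsto_nhds.2 fun ε hε => ?_) k).mul_const _
    filter_upwards [h (ε / 2) (half_pos hε)] with i hi
    have := hi p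
    rw [hp] at this
    rw [Real.dist_eq]
    linarith

theorem position_av_pos {N : E n → ℝ} (h : IsNorm N) (k : ℕ) : 0 < av (fun p => N p ^ k) :=
  av_pos (h.toSub.continuous.pow k).continuousOn fun p hp =>
    pow_pos (h.pos p (by rintro rfl; simp at hp)) k

theorem position_bound {r : ℕ} (hr : r ≤ 1) {μ : Measure (E n)} (hμ : Good μ) {c : ℝ} (hc : 0 < c)
    (hcμ : ∀ v, c * ‖v‖ ≤ ∫ w, |⟪w, v⟫| ∂μ) {L : E n ≃L[ℝ] E n} (hL : Symm L) {N : E n → ℝ}
    (hN : IsMin r (μ.map L) N) {u : E n} (hu : ‖u‖ = 1) (hLu : 1 ≤ ‖L u‖) {W : E n} (hW : ‖W‖ = 1)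
    {ε : ℝ} (hε : 0 ≤ ε) (hLW : L W = ε • W) :
    av (fun p => N p ^ (r + 1) * (⟪p, W⟫ * ⟪p, W⟫)) / av (fun p => N p ^ (r + 1)) ≤
      (1 + (r + 1) * (∫ z, ‖z‖ ∂μ) * n / c * ε) / (n + 1) := by
  have hS := hN.1.toSub
  have hν := hμ.map hL
  have hG := position_av_pos hN.1 (r + 1)
  have hr0 : (0 : ℝ) ≤ r + 1 := (Nat.cast_add_one_pos r).le
  have hm : 0 ≤ ∫ z, ‖z‖ ∂μ := integral_nonneg fun z => norm_nonneg z
  have hle : ∀ {ν : Measure (E n)}, Good ν → ∀ v : E n, ‖v‖ = 1 →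
      ∫ w, |⟪w, v⟫| ∂ν ≤ ∫ w, ‖w‖ ∂ν := fun hν v hv =>
    integral_mono (hν.integrable (by fun_prop)) (hν.integrable continuous_norm) fun w => by
      simpa [hv] using abs_real_inner_le_norm w v
  have a1 : c ≤ n * av (fun p => N p ^ (r + 1)) := by
    refine le_trans ?_ ((hle hν u hu).trans (hN.moment_ge hr hν))
    rw [integral_map_clm]
    simp only [hL _ u]
    exact (le_mul_of_one_le_right hc.le hLu).trans (hcμ _)
  have a2 : av (fun p => N p ^ r * |⟪gradient N p, W⟫|) ≤ ε * ∫ z, ‖z‖ ∂μ := by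
    refine (hN.el1 hr hν W).trans ?_
    rw [integral_map_clm]
    simp only [hL _ W, hLW, real_inner_smul_right, abs_mul, abs_of_nonneg hε]
    rw [integral_const_mul]
    exact mul_le_mul_of_nonneg_left (hle hμ W hW) hε
  have a3 : av (fun p => ⟪gradient (fun x => N x ^ (r + 1)) p, W⟫ * ⟪p, W⟫) ≤
      (r + 1) * av (fun p => N p ^ r * |⟪gradient N p, W⟫|) := by
    rw [← av_const_mul]
    refine av_mono_ae (((hS.lh.pow _).bd_grad_inner W).mul (bd_inner W))
      (((hS.bd.pow r).mul (hS.lh.bd_grad_inner W).abs).const_mul _) ?_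
    filter_upwards [hS.lh.ae_diff] with p hp hp1
    rw [grad_comp hp (η := fun x => x ^ (r + 1)) (hasDerivAt_pow (r + 1) (N p)),
      real_inner_smul_left, Nat.add_sub_cancel, Nat.cast_add, Nat.cast_one, mul_assoc, mul_assoc]
    have b1 : |⟪p, W⟫| ≤ 1 := by simpa [hp1, hW] using abs_real_inner_le_norm p W
    refine mul_le_mul_of_nonneg_left (mul_le_mul_of_nonneg_left ((le_abs_self _).trans ?_)
      (pow_nonneg (hS.nonneg p) r)) (by positivity)
    rw [abs_mul]
    exact mul_le_of_le_one_right (abs_nonneg _) b1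
  have a4 := ibp (hS.lh.pow (r + 1)) (lh_inner W) W
  simp only [grad_inner, real_inner_self_eq_norm_sq, hW, one_pow, mul_one, Nat.cast_add,
    Nat.cast_one] at a4
  have e1 : (fun p => ⟪p, W⟫ * (N p ^ (r + 1) * ⟪p, W⟫)) =
      fun p => N p ^ (r + 1) * (⟪p, W⟫ * ⟪p, W⟫) := by funext p; ring
  rw [e1] at a4
  have a5 : 0 ≤ av (fun p => N p ^ (r + 1) * (⟪p, W⟫ * ⟪p, W⟫)) :=
    av_nonneg fun p _ => mul_nonneg (pow_nonneg (hS.nonneg p) _) (mul_self_nonneg _)
  have a6 : (r + 1) * (ε * ∫ z, ‖z‖ ∂μ) ≤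
      (r + 1) * (∫ z, ‖z‖ ∂μ) * n / c * ε * av (fun p => N p ^ (r + 1)) := by
    have : (r + 1) * (∫ z, ‖z‖ ∂μ) * n / c * ε * av (fun p => N p ^ (r + 1)) =
        (r + 1) * (ε * ∫ z, ‖z‖ ∂μ) * ((n * av (fun p => N p ^ (r + 1))) / c) := by ring
    rw [this]
    exact le_mul_of_one_le_right (mul_nonneg hr0 (mul_nonneg hε hm)) ((one_le_div hc).2 a1)
  have a7 := mul_le_mul_of_nonneg_left a2 hr0
  rw [div_le_div_iff₀ hG (Nat.cast_add_one_pos n)]
  linarith only [mul_nonneg (Nat.cast_nonneg r : (0 : ℝ) ≤ r) a5, a3, a4, a6, a7]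

theorem exists_position {r : ℕ} (hr : r ≤ 1) {μ : Measure (E n)} (hμ : Good μ) :
    ∃ (T : E n ≃L[ℝ] E n) (N : E n → ℝ) (c : ℝ), Symm T ∧ IsMin r (μ.map T) N ∧
      ∀ i j, av (fun p => N p ^ (r + 1) * (p i * p j)) = if i = j then c else 0 := by
  choose! L hLs hL using fun (T : Matrix (Fin n) (Fin n) ℝ) (hT : T.PosDef) => exists_lin hT
  choose! N hN using fun (T : Matrix (Fin n) (Fin n) ℝ) (hT : T.PosDef) =>
    exists_isMin r (hμ.map (hLs T hT))
  obtain ⟨c, hc, hcμ⟩ := hμ.nondeg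
  have hn : (0 : ℝ) < n := Nat.cast_pos.2 (NeZero.pos n)
  have hbd : ∀ T : Matrix (Fin n) (Fin n) ℝ, T.PosDef → ∀ i j,
      Bd (fun p => N T p ^ (r + 1) * (p i * p j)) := fun T hT i j =>
    ((hN T hT).1.toSub.bd.pow _).mul ((bd_coord i).mul (bd_coord j))
  refine Exists.elim (exists_pos (fun T => Matrix.of fun i j =>
      av (fun p => N T p ^ (r + 1) * (p i * p j)) / av (fun p => N T p ^ (r + 1)))
    ((r + 1) * (∫ z, ‖z‖ ∂μ) * n / c) (fun T₀ hT₀ => ?_) (fun T hT => ⟨?_, ?_⟩)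
    (fun T hT htr w ε hw hε hTw => ?_)) fun T ⟨hT, hS⟩ => ?_
  rotate_right
  · refine ⟨L T, N T, av (fun p => N T p ^ (r + 1)) / n, hLs T hT, hN T hT, fun i j => ?_⟩
    have := congrFun (congrFun hS i) j
    rw [Matrix.of_apply, div_eq_iff (position_av_pos (hN T hT).1 _).ne', Matrix.smul_apply,
      Matrix.one_apply] at this
    rw [this]
    split_ifs
    · simp [div_eq_inv_mul]
    · simp
  · have : FirstCountableTopology (Matrix (Fin n) (Fin n) ℝ) :=
      inferInstanceAs (FirstCountableTopology (Fin n → Fin n → ℝ))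
    have hcl : Continuous (Matrix.toEuclideanCLM (𝕜 := ℝ) (n := Fin n)) :=
      (Matrix.toEuclideanCLM (𝕜 := ℝ) (n := Fin n)).toAlgEquiv.toLinearMap
        |>.continuous_of_finiteDimensional
    have hLe : ∀ T : Matrix (Fin n) (Fin n) ℝ, T.PosDef → ∀ x,
        L T x = Matrix.toEuclideanCLM (𝕜 := ℝ) (n := Fin n) T x := fun T hT x => by
      ext i
      rw [hL T hT]
      rfl
    have h1 := fun δ hδ => isMin_tendsto r hμ (l := 𝓝[{T | T.PosDef}] T₀) (T := L) (hLs T₀ hT₀)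
      (fun η hη => by
        filter_upwards [self_mem_nhdsWithin, mem_nhdsWithin_of_mem_nhds
          (Metric.tendsto_nhds.1 (hcl.tendsto T₀) η hη)] with T hT h w
        rw [hLe T hT, hLe T₀ hT₀, ← ContinuousLinearMap.sub_apply]
        refine (ContinuousLinearMap.le_opNorm _ _).trans
          (mul_le_mul_of_nonneg_right ?_ (norm_nonneg _))
        rw [← dist_eq_norm]
        exact le_of_lt h) (N := N)
      (eventually_mem_nhdsWithin.mono fun T hT => ⟨hLs T hT, hN T hT⟩) (hN T₀ hT₀) (δ := δ) hδ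
    have h2 := fun g hg => position_tendsto (l := 𝓝[{T | T.PosDef}] T₀)
      (eventually_mem_nhdsWithin.mono fun T hT => (hN T hT).1) (hN T₀ hT₀).1 h1 (r + 1) (g := g) hg
    refine tendsto_pi_nhds.2 fun i => tendsto_pi_nhds.2 fun j => ?_
    exact (h2 _ ((bd_coord i).mul (bd_coord j))).div (by simpa using h2 _ (bd_const 1))
      (position_av_pos (hN T₀ hT₀).1 _).ne'
  · ext i j
    simp only [Matrix.transpose_apply, Matrix.of_apply, mul_comm]
  · simp only [Matrix.trace, Matrix.diag, Matrix.of_apply]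
    rw [← Finset.sum_div, div_eq_one_iff_eq (position_av_pos (hN T hT).1 _).ne',
      ← av_sum _ fun i _ => hbd T hT i i]
    refine av_congr fun p hp => ?_
    rw [← Finset.mul_sum, ← inner_eq_sum, real_inner_self_eq_norm_sq, hp, one_pow, mul_one]
  · obtain ⟨i, hi⟩ : ∃ i, 1 ≤ T i i := by
      by_contra hlt
      push Not at hlt
      have := Finset.sum_lt_sum_of_nonempty (s := Finset.univ) Finset.univ_nonempty
        fun i _ => hlt i
      simp only [Finset.sum_const, Finset.card_univ, Fintype.card_fin, nsmul_eq_mul, mul_one] at this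
      exact this.ne htr
    have hW : ‖(WithLp.toLp 2 w : E n)‖ = 1 := by
      rw [← sq_eq_sq₀ (norm_nonneg _) zero_le_one, ← real_inner_self_eq_norm_sq, inner_eq_sum,
        one_pow]
      exact hw
    have h := position_bound hr hμ hc hcμ (hLs T hT) (hN T hT) (u := EuclideanSpace.single i 1)
      (by simp) (le_trans (by simpa [hL T hT, Pi.single_apply] using hi.trans (le_abs_self _))
        (PiLp.norm_apply_le (L T (EuclideanSpace.single i 1)) i)) hW hε (by
        ext k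
        rw [hL T hT]
        exact congrFun hTw k)
    refine le_of_eq_of_le ?_ h
    simp only [dotProduct, Matrix.mulVec, Matrix.of_apply, inner_eq_sum, Finset.sum_mul,
      Finset.mul_sum]
    rw [av_sum _ fun j _ => Bd.sum _ fun k _ => ((hN T hT).1.toSub.bd.pow _).mul
      (((bd_coord k).mul (bd_const _)).mul ((bd_coord j).mul (bd_const _))), Finset.sum_div]
    refine Finset.sum_congr rfl fun j _ => ?_
    rw [av_sum _ fun k _ => ((hN T hT).1.toSub.bd.pow _).mul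
      (((bd_coord k).mul (bd_const _)).mul ((bd_coord j).mul (bd_const _))), Finset.sum_div]
    refine Finset.sum_congr rfl fun k _ => ?_
    have : (fun p : E n => N T p ^ (r + 1) * (p k * w k * (p j * w j))) =
        fun p => (w j * w k) * (N T p ^ (r + 1) * (p j * p k)) := by funext p; ring
    rw [this, av_const_mul]
    ring

end Crest.Agent.R230
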