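import Crest.Agent.R230.Star
import Crest.Agent.R230.Bilin
import Crest.Agent.R230.Position

/-!
# R230/BT

The bilinear inequality (done by the project lead).
-/

set_option autoImplicit false
set_option linter.unusedSectionVars false
set_option linter.unusedVariables false

namespace Crest.Agent.R230

open MeasureTheory Metric Set Filter Topology
open scoped RealInnerProductSpace ENNReal Pointwise

variable {n : ℕ} [NeZero n]

theorem bt_int {X Y : Type*} [MeasurableSpace X] [MeasurableSpace Y] {α : Measure X}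
    {β : Measure Y} [SFinite α] [SFinite β] {a : X → E n} {b : Y → E n} (ha : Integrable a α)
    (hb : Integrable b β) : Integrable (fun z : X × Y => |⟪a z.1, b z.2⟫|) (α.prod β) := by
  refine (ha.norm.mul_prod hb.norm).mono' ?_ (ae_of_all _ fun z => ?_)
  · exact (ha.1.comp_fst.inner (𝕜 := ℝ) hb.1.comp_snd).norm
  · rw [Real.norm_eq_abs, abs_abs]
    exact abs_real_inner_le_norm _ _

theorem bt_good_id {μ : Measure (E n)} (h : Good μ) : Integrable (fun w : E n => w) μ :=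
  (integrable_norm_iff aestronglyMeasurable_id).1 (h.integrable continuous_norm)

theorem bt_grad_int {d : ℕ} {G : E n → ℝ} (h : LH d G) : Integrable (gradient G) (sph n) :=
  (integrable_norm_iff (measurable_grad G).aestronglyMeasurable).1 h.bd_norm_grad.integrable

theorem bt_el {r : ℕ} (hr : r ≤ 1) {ν : Measure (E n)} (hν : Good ν) {N : E n → ℝ}
    (h : IsMin r ν N) (v : E n) :
    ∫ p, |⟪gradient (fun x => N x ^ (r + 1)) p, v⟫| ∂sph n ≤ (r + 1) * ∫ w, |⟪w, v⟫| ∂ν := by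
  have hS : Sub N := h.1.toSub
  have e : av (fun p => |⟪gradient (fun x => N x ^ (r + 1)) p, v⟫|) =
      av (fun p => ((r : ℝ) + 1) * (N p ^ r * |⟪gradient N p, v⟫|)) := by
    refine av_congr_ae ?_
    filter_upwards [hS.lh.ae_diff] with p hp _
    rw [grad_comp (η := fun t => t ^ (r + 1)) hp (hasDerivAt_pow (r + 1) (N p)),
      real_inner_smul_left, abs_mul, abs_of_nonneg (by have := hS.nonneg p; positivity)]
    simp only [Nat.add_sub_cancel]
    push_cast
    ring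
  change av _ ≤ _
  rw [e, av_const_mul]
  exact mul_le_mul_of_nonneg_left (h.el1 hr hν v) (by positivity)

theorem bt_upper {r : ℕ} (hr : r ≤ 1) {ν ν' : Measure (E n)} (hν : Good ν) (hν' : Good ν')
    {N N' : E n → ℝ} (h : IsMin r ν N) (h' : IsMin r ν' N') :
    av (fun q => av (fun p => Real.sign ⟪p, q⟫ *
      ⟪gradient (fun x => N x ^ (r + 1)) p, gradient (fun x => N' x ^ (r + 1)) q⟫)) ≤
      ((r : ℝ) + 1) ^ 2 * ∫ w', ∫ w, |⟪w, w'⟫| ∂ν ∂ν' := by
  have := hν.fin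
  have := hν'.fin
  set a := gradient (fun x => N x ^ (r + 1)) with ha
  set b := gradient (fun x => N' x ^ (r + 1)) with hb
  have hai : Integrable a (sph n) := bt_grad_int (h.1.toSub.lh.pow (r + 1))
  have hbi : Integrable b (sph n) := bt_grad_int (h'.1.toSub.lh.pow (r + 1))
  have hs : (0 : ℝ) ≤ (r : ℝ) + 1 := by positivity
  have i1 := bt_int (bt_good_id hν) hbi
  have i2 := bt_int (bt_good_id hν) (bt_good_id hν')
  have s1 : av (fun q => av (fun p => Real.sign ⟪p, q⟫ * ⟪a p, b q⟫)) ≤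
      ∫ q, ((r : ℝ) + 1) * ∫ w, |⟪w, b q⟫| ∂ν ∂sph n := by
    unfold av
    refine (Real.le_norm_self _).trans (norm_integral_le_of_norm_le
      (i1.integral_prod_right.const_mul _) (ae_of_all _ fun q => ?_))
    refine le_trans (norm_integral_le_of_norm_le ?_ (ae_of_all _ fun p => ?_)) (bt_el hr hν h (b q))
    · exact ((h.1.toSub.lh.pow (r + 1)).bd_grad_inner (b q)).abs.integrable
    · rw [Real.norm_eq_abs, abs_mul]
      refine mul_le_of_le_one_left (abs_nonneg _) ?_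
      rcases Real.sign_apply_eq ⟪p, q⟫ with e | e | e <;> rw [e] <;> norm_num
  have s2 : ∫ q, ∫ w, |⟪w, b q⟫| ∂ν ∂sph n = ∫ w, ∫ q, |⟪w, b q⟫| ∂sph n ∂ν :=
    (integral_integral_swap (f := fun w q => |⟪w, b q⟫|) i1).symm
  have s3 : ∫ w, ∫ q, |⟪w, b q⟫| ∂sph n ∂ν ≤ ∫ w, ((r : ℝ) + 1) * ∫ w', |⟪w, w'⟫| ∂ν' ∂ν := by
    refine integral_mono i1.integral_prod_left (i2.integral_prod_left.const_mul _) fun w => ?_
    have := bt_el hr hν' h' w
    simpa only [real_inner_comm w] using this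
  have s4 : ∫ w, ∫ w', |⟪w, w'⟫| ∂ν' ∂ν = ∫ w', ∫ w, |⟪w, w'⟫| ∂ν ∂ν' :=
    integral_integral_swap (f := fun w w' => |⟪w, w'⟫|) i2
  rw [integral_const_mul, s2] at s1
  rw [integral_const_mul, s4] at s3
  calc _ ≤ _ := s1
    _ ≤ ((r : ℝ) + 1) * (((r : ℝ) + 1) * ∫ w', ∫ w, |⟪w, w'⟫| ∂ν ∂ν') :=
        mul_le_mul_of_nonneg_left s3 hs
    _ = _ := by ring

theorem bt_alg {x y F F' a b : ℝ} (hx : 0 ≤ x) (hy : 0 < y)
    (ha : a ^ 2 ≤ 99 / 100 * (x ^ 2 - F ^ 2)) (hb : b ^ 2 ≤ 99 / 100 * (y ^ 2 - F' ^ 2)) :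
    F * F' + a * b ≤ x * y ∧ (x * y ≤ F * F' + a * b → x ^ 2 ≤ F ^ 2) := by
  have h1 : 0 ≤ x ^ 2 - F ^ 2 := by nlinarith [sq_nonneg a]
  have h2 : 0 ≤ y ^ 2 - F' ^ 2 := by nlinarith [sq_nonneg b]
  have h3 : (F * F' + a * b) ^ 2 ≤ (F ^ 2 + a ^ 2) * (F' ^ 2 + b ^ 2) := by
    nlinarith [sq_nonneg (F * b - a * F')]
  have h4 : (F ^ 2 + a ^ 2) * (F' ^ 2 + b ^ 2) ≤ (F ^ 2 + a ^ 2) * y ^ 2 :=
    mul_le_mul_of_nonneg_left (by linarith) (by positivity)
  constructor
  · have h5 : (F ^ 2 + a ^ 2) * y ^ 2 ≤ x ^ 2 * y ^ 2 :=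
      mul_le_mul_of_nonneg_right (by linarith) (by positivity)
    refine abs_le_of_sq_le_sq' ?_ (by positivity) |>.2
    rw [mul_pow]
    linarith
  · intro h
    have h5 : (x * y) ^ 2 ≤ (F * F' + a * b) ^ 2 := pow_le_pow_left₀ (by positivity) h 2
    have h6 : x ^ 2 * y ^ 2 ≤ (F ^ 2 + a ^ 2) * y ^ 2 := by rw [← mul_pow]; linarith
    have h7 := le_of_mul_le_mul_right h6 (by positivity)
    linarith

theorem bt_exists_c {K : ℝ} (hK : 0 < K) : ∃ c : ℝ, 0 < c ∧ c ^ n * K = 1 :=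
  ⟨K⁻¹ ^ ((n : ℝ)⁻¹), by positivity, by
    rw [Real.rpow_inv_natCast_pow (by positivity) (NeZero.ne n), inv_mul_cancel₀ hK.ne']⟩

theorem bt_F {r : ℕ} (hr : r ≤ 1) {ν : Measure (E n)} (hν : Good ν) {N : E n → ℝ}
    (h : IsMin r ν N) {A : ℝ} (hI : Iso ν A) {c : ℝ} (hc : 0 < c)
    (h1 : c ^ n * av (fun p => (N p)⁻¹ ^ n) = 1) :
    A * kap n ≤ (c * av (fun p => N p ^ r)) ^ n := by
  have h2 := hI N h.1
  have h3 : (∫ w, dual N w ∂ν) ^ n ≤ av (fun p => N p ^ r) ^ n :=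
    pow_le_pow_left₀ (integral_nonneg fun w => h.1.toSub.posH.dual_nonneg w) (h.el2 hr hν) n
  rw [h.1.toSub.vol_body] at h2
  have h4 := mul_le_mul_of_nonneg_left (h2.trans h3) (pow_pos hc n).le
  rw [mul_pow]
  calc A * kap n = A * kap n * (c ^ n * av (fun p => (N p)⁻¹ ^ n)) := by rw [h1, mul_one]
    _ = _ := by ring
    _ ≤ _ := h4

theorem bt_av_pos {N : E n → ℝ} (h : Sub N) (k : ℕ) : 0 < av (fun p => N p ^ k) :=
  av_pos (h.continuous.pow k).continuousOn fun p hp =>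
    pow_pos (h.pos p (by rintro rfl; simp at hp)) k

theorem bt (hn : 4 ≤ n) {μ μ' : Measure (E n)} (hμ : Good μ) (hμ' : Good μ') {A A' : ℝ}
    (hA : 0 < A) (hA' : 0 < A') (h : Iso μ A) (h' : Iso μ' A') :
    h1 n ^ n * (A * kap n) * (A' * kap n) ≤ (∫ w', ∫ w, |⟪w, w'⟫| ∂μ ∂μ') ^ n ∧
      ((∫ w', ∫ w, |⟪w, w'⟫| ∂μ ∂μ') ^ n ≤ h1 n ^ n * (A * kap n) * (A' * kap n) →
        ∃ T : E n ≃L[ℝ] E n, Symm T ∧ (∫ w, ‖T w‖ ∂μ) ^ n ≤ A * adet T * kap n) := by
  have hr : rr n ≤ 1 := by unfold rr; split_ifs <;> omega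
  obtain ⟨T, N, c₀, hT, hN, hpos⟩ := exists_position hr hμ
  have hν := hμ.map hT
  have hν' := hμ'.map hT.symm
  obtain ⟨N', hN'⟩ := exists_isMin (rr n) hν'
  obtain ⟨c, hc, hc1⟩ := bt_exists_c (n := n) (hN.1.toSub.av_inv_pow_pos n)
  obtain ⟨c', hc', hc1'⟩ := bt_exists_c (n := n) (hN'.1.toSub.av_inv_pow_pos n)
  have hB : ∫ w', ∫ w, |⟪w, w'⟫| ∂(μ.map T) ∂(μ'.map T.symm) = ∫ w', ∫ w, |⟪w, w'⟫| ∂μ ∂μ' := by
    rw [integral_map_clm]
    refine integral_congr_ae (ae_of_all _ fun w' => ?_)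
    simp only
    rw [integral_map_clm]
    refine integral_congr_ae (ae_of_all _ fun w => ?_)
    simp only
    rw [hT, ContinuousLinearEquiv.apply_symm_apply]
  have hup := bt_upper hr hν hν' hN hN'
  rw [hB] at hup
  set B := ∫ w', ∫ w, |⟪w, w'⟫| ∂μ ∂μ' with hBdef
  have hB0 : 0 ≤ B := integral_nonneg fun w' => integral_nonneg fun w => abs_nonneg _
  have hG := hN.1.toSub.lh.pow (rr n + 1)
  have hG' := hN'.1.toSub.lh.pow (rr n + 1)
  have hbil := (bilin hn hG hG' (pr_two_eq_zero hG.bd hpos)).trans hup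
  have hst := star hn hN.1 hc hc1
  have hst' := star hn hN'.1 hc' hc1'
  have hF := bt_F hr hν hN (h.map hT) hc hc1
  have hF' := bt_F hr hν' hN' (h'.map hT.symm) hc' hc1'
  have hg := bt_av_pos hN.1.toSub (rr n + 1)
  have hg' := bt_av_pos hN'.1.toSub (rr n + 1)
  have hf : 0 < c * av (fun p => N p ^ rr n) := mul_pos hc (bt_av_pos hN.1.toSub _)
  have hf' : 0 < c' * av (fun p => N' p ^ rr n) := mul_pos hc' (bt_av_pos hN'.1.toSub _)
  have hhi := hi_nonneg (by omega) hG.bd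
  have hhi' := hi_nonneg (by omega) hG'.bd
  have hrig := rigid hr hN.1 hc hc1
  have hel2 := hN.el2 hr hν
  set g := av (fun p => N p ^ (rr n + 1))
  set g' := av (fun p => N' p ^ (rr n + 1))
  set f := c * av (fun p => N p ^ rr n) with hfdef
  set f' := c' * av (fun p => N' p ^ rr n)
  set H := hi (fun p => N p ^ (rr n + 1))
  set H' := hi (fun p => N' p ^ (rr n + 1))
  have hbet : 0 ≤ bet n (rr n + 1) := by
    have : (4 : ℝ) ≤ n := by exact_mod_cast hn
    have h0 : (0 : ℝ) ≤ (n : ℝ) - 1 + 2 * ((rr n + 1 : ℕ) : ℝ) := by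
      have : (0 : ℝ) ≤ ((rr n + 1 : ℕ) : ℝ) := by positivity
      linarith
    unfold bet
    positivity
  set β := bet n (rr n + 1)
  push_cast at hbil
  set s : ℝ := (rr n : ℝ) + 1 with hs
  have hs0 : 0 < s := by positivity
  have hh := h1_pos (n := n)
  have hκ := kap_pos n
  have halg := bt_alg (x := s * g) (y := s * g') (F := s * f) (F' := s * f')
    (a := √β * √H) (b := √β * √H') (by positivity) (by positivity)
    (by rw [mul_pow, Real.sq_sqrt hbet, Real.sq_sqrt hhi]; linarith)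
    (by rw [mul_pow, Real.sq_sqrt hbet, Real.sq_sqrt hhi']; linarith)
  have e1 : √β * √H * (√β * √H') = β * (√H * √H') := by
    rw [mul_mul_mul_comm, Real.mul_self_sqrt hbet]
  rw [e1] at halg
  have hd := adet_pos T
  have e2 : h1 n ^ n * (A * kap n) * (A' * kap n) =
      h1 n ^ n * (A * adet T * kap n) * (A' * adet T.symm * kap n) := by
    rw [adet_symm]; field_simp
  have k1 : h1 n * (f * f') ≤ B := by
    have : s ^ 2 * (h1 n * (f * f')) ≤ s ^ 2 * B := by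
      refine le_trans ?_ hbil
      have := mul_le_mul_of_nonneg_left halg.1 hh.le
      linarith
    exact le_of_mul_le_mul_left this (by positivity)
  have k2 : (h1 n * (f * f')) ^ n ≤ B ^ n := pow_le_pow_left₀ (by positivity) k1 n
  have hd' := adet_pos T.symm
  have k3 : h1 n ^ n * (A * adet T * kap n) * (A' * adet T.symm * kap n) ≤
      h1 n ^ n * (A * adet T * kap n) * f' ^ n := mul_le_mul_of_nonneg_left hF' (by positivity)
  have k4 : h1 n ^ n * (A * adet T * kap n) * f' ^ n ≤ (h1 n * (f * f')) ^ n := by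
    rw [mul_pow (h1 n), mul_pow f, ← mul_assoc (h1 n ^ n) (f ^ n)]
    gcongr
  rw [e2]
  refine ⟨k3.trans (k4.trans k2), fun he => ⟨T, hT, ?_⟩⟩
  have k5 : B ≤ h1 n * (f * f') :=
    (pow_le_pow_iff_left₀ hB0 (by positivity) (NeZero.ne n)).1 (he.trans (k3.trans k4))
  have k6 : s * g * (s * g') ≤ s * f * (s * f') + β * (√H * √H') := by
    have h2 := hbil.trans (mul_le_mul_of_nonneg_left k5 (by positivity))
    have h3 : h1 n * (s ^ 2 * (g * g') - β * (√H * √H')) ≤ h1 n * (s ^ 2 * (f * f')) := by linarith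
    have h4 := le_of_mul_le_mul_left h3 hh
    linarith
  have k7 : g ≤ f := by
    have h2 := (pow_le_pow_iff_left₀ (by positivity) (by positivity) two_ne_zero).1 (halg.2 k6)
    exact le_of_mul_le_mul_left h2 hs0
  have k8 : f ^ n ≤ A * adet T * kap n := by
    have h2 := k2.trans (he.trans k3)
    rw [mul_pow (h1 n), mul_pow f, ← mul_assoc (h1 n ^ n) (f ^ n)] at h2
    exact le_of_mul_le_mul_left (le_of_mul_le_mul_right h2 (by positivity)) (by positivity)
  refine le_trans (pow_le_pow_left₀ (integral_nonneg fun w => norm_nonneg _) ?_ n) k8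
  have k9 : ∫ w, dual N w ∂(μ.map T) = c⁻¹ * ∫ w, ‖T w‖ ∂μ := by
    rw [integral_map_clm, ← integral_const_mul]
    refine integral_congr_ae (ae_of_all _ fun w => ?_)
    simp only
    rw [hrig k7, dual_norm hc]
  rw [k9, inv_mul_le_iff₀ hc] at hel2
  exact hel2

end Crest.Agent.R230
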