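import Crest.Agent.R230.BT
import Crest.Agent.R230.Zon
import Crest.Agent.R230.EqB
import Crest.Agent.R230.Ell

/-!
# R230/Main54

Petty's projection inequality for a body given by its gauge (done by the project lead).
-/

set_option autoImplicit false
set_option linter.unusedSectionVars false
set_option linter.unusedVariables false

namespace Crest.Agent.R230

open MeasureTheory Metric Set Filter Topology
open scoped RealInnerProductSpace ENNReal Pointwise

variable {n : ℕ} [NeZero n]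

theorem m54_sub_comp {γ : E n → ℝ} (h : Sub γ) (T : E n ≃L[ℝ] E n) : Sub (fun x => γ (T x)) :=
  ⟨fun x y => by rw [map_add]; exact h.add_le _ _,
    fun c x hc => by rw [map_smul]; exact h.smul c _ hc,
    fun x hx => h.pos _ (by simpa using hx)⟩

theorem m54_ell {γ : E n → ℝ} (hγ : Sub γ) {T : E n ≃L[ℝ] E n} (hT : Symm T)
    (h : (∫ w, ‖T w‖ ∂surf γ) ^ n ≤ vol (body γ) ^ (n - 1) * adet T * kap n) :
    ∃ (a : E n) (T : E n ≃ₗ[ℝ] E n), body γ = (fun x => a + T x) '' closedBall 0 1 := by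
  obtain ⟨C, hC⟩ := hγ.vol_add_le (M := T '' closedBall 0 1) (g := fun w => ‖T w‖)
    (T.continuous.norm) (fun w => norm_nonneg _) (by
      rintro _ ⟨m, hm, rfl⟩ w
      rw [hT]
      refine (real_inner_le_norm _ _).trans ?_
      exact mul_le_of_le_one_left (norm_nonneg _) (mem_closedBall_zero_iff.1 hm))
  have h1 := m54_sub_comp hγ T
  have hb : T '' body (fun x => γ (T x)) = body γ := by
    rw [← body_comp]; simp
  set H := ∫ w, ‖T w‖ ∂surf γ
  have hH : 0 ≤ H := integral_nonneg fun w => norm_nonneg _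
  have hd := adet_pos T
  have hV : vol (body γ) = adet T * vol (body (fun x => γ (T x))) := by rw [← vol_image, hb]
  have hn1 : n = (n - 1) + 1 := (Nat.succ_pred_eq_of_ne_zero (NeZero.ne n)).symm
  have h2 := mean_width_le h1 (H := H / adet T) (C := C / adet T) (by positivity) (by
      rw [div_pow, div_le_iff₀ (by positivity)]
      refine h.trans (le_of_eq ?_)
      rw [hV, mul_pow]
      have : adet T ^ n = adet T ^ (n - 1) * adet T := by rw [← pow_succ, ← hn1]
      rw [this]; ring) (fun t h0 h1 => by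
      have e : T '' (body (fun x => γ (T x)) + t • closedBall (0 : E n) 1) =
          body γ + t • T '' closedBall 0 1 := by
        rw [image_add, hb, image_smul_comm T t _ (fun x => map_smul T t x)]
      have h3 := hC t h0 h1
      rw [← e, vol_image, hV] at h3
      refine le_of_mul_le_mul_left (h3.trans (le_of_eq ?_)) hd
      field_simp)
  obtain ⟨a, ρ, hρ, he⟩ := eq_ball h1 h2
  refine ⟨T a, (LinearEquiv.smulOfNeZero ℝ (E n) ρ hρ.ne').trans T.toLinearEquiv, ?_⟩
  rw [← hb, he]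
  ext y
  simp only [mem_image, LinearEquiv.trans_apply, LinearEquiv.smulOfNeZero_apply,
    ContinuousLinearEquiv.coe_toLinearEquiv, mem_closedBall, dist_eq_norm, sub_zero]
  constructor
  · rintro ⟨x, hx, rfl⟩
    refine ⟨ρ⁻¹ • (x - a), ?_, ?_⟩
    · rw [norm_smul, Real.norm_eq_abs, abs_of_pos (inv_pos.2 hρ), inv_mul_le_iff₀ hρ, mul_one]
      exact hx
    · rw [smul_smul, mul_inv_cancel₀ hρ.ne', one_smul, ← map_add, add_sub_cancel]
  · rintro ⟨x, hx, rfl⟩
    refine ⟨a + ρ • x, ?_, by rw [map_add]⟩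
    rw [add_sub_cancel_left, norm_smul, Real.norm_eq_abs, abs_of_pos hρ]
    exact mul_le_of_le_one_right hρ.le hx

theorem petty (hn : 4 ≤ n) {γ : E n → ℝ} (hγ : Sub γ) :
    kap (n - 1) ^ n * vol (body γ) ^ (n - 1) ≤ vol (PiB (body γ)) * kap n ^ (n - 2) ∧
      (vol (PiB (body γ)) * kap n ^ (n - 2) ≤ kap (n - 1) ^ n * vol (body γ) ^ (n - 1) →
        ∃ (a : E n) (T : E n ≃ₗ[ℝ] E n), body γ = (fun x => a + T x) '' closedBall 0 1) := by
  obtain ⟨hL1, hL2, hL3⟩ := hγ.piB_spec
  obtain ⟨hγ', hb'⟩ := sub_gauge hL1 hL2 hL3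
  have hV : 0 < vol (body γ) := vol_pos hγ.isCompact_body ⟨0, hγ.zero_mem_interior⟩
  have hW : 0 < vol (PiB (body γ)) := vol_pos hL1 ⟨0, hL3⟩
  have hI' := hγ'.iso_surf
  rw [hb'] at hI'
  obtain ⟨k1, k2⟩ := bt hn hγ.good_surf hγ'.good_surf (pow_pos hV _) (pow_pos hW _) hγ.iso_surf hI'
  have k3 := hγ.bilin_le_vol
  set B := ∫ w', ∫ w, |⟪w, w'⟫| ∂surf γ ∂surf (gauge (PiB (body γ)))
  have hB0 : 0 ≤ B := integral_nonneg fun w' => integral_nonneg fun w => abs_nonneg _
  set V := vol (body γ)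
  set W := vol (PiB (body γ))
  have hκ := kap_pos n
  have hh := h1_pos (n := n)
  have hn0 : (0 : ℝ) < n := by exact_mod_cast (by omega : 0 < n)
  have k4 : ((n : ℝ) / 2) ^ n * B ^ n ≤ W * W ^ (n - 1) := by
    rw [← mul_pow, ← pow_succ', show n - 1 + 1 = n by omega]
    exact pow_le_pow_left₀ (by positivity) k3 n
  have e1 : kap (n - 1) ^ n * V ^ (n - 1) * W ^ (n - 1) =
      (((n : ℝ) / 2) ^ n * (h1 n ^ n * (V ^ (n - 1) * kap n) * (W ^ (n - 1) * kap n))) *
        kap n ^ (n - 2) := by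
    have : kap n ^ n = kap n ^ (n - 2) * kap n ^ 2 := by rw [← pow_add]; congr 1; omega
    rw [kap_pred, mul_pow, mul_pow, this]; ring
  constructor
  · refine le_of_mul_le_mul_right ?_ (pow_pos hW (n - 1))
    rw [e1]
    calc _ ≤ (((n : ℝ) / 2) ^ n * B ^ n) * kap n ^ (n - 2) := by gcongr
      _ ≤ (W * W ^ (n - 1)) * kap n ^ (n - 2) := by gcongr
      _ = _ := by ring
  · intro he
    have k5 := mul_le_mul_of_nonneg_right he (pow_pos hW (n - 1)).le
    rw [e1] at k5
    have k6 : (((n : ℝ) / 2) ^ n * B ^ n) * kap n ^ (n - 2) ≤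
        W * kap n ^ (n - 2) * W ^ (n - 1) := by
      calc _ ≤ (W * W ^ (n - 1)) * kap n ^ (n - 2) := by gcongr
        _ = _ := by ring
    have k7 := le_of_mul_le_mul_left (le_of_mul_le_mul_right (k6.trans k5) (by positivity))
      (by positivity)
    obtain ⟨T, hT, hH⟩ := k2 k7
    exact m54_ell hγ hT hH

end Crest.Agent.R230
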