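import Crest.Agent.R230.Defs
import Crest.Agent.R74.Brouwer

/-!
# R230/VI

A consequence of Brouwer's theorem.
`exists_vi` (Hartman–Stampacchia): let `P` be the nearest point map onto `K`
(`exists_norm_eq_iInf_of_complete_convex`, `norm_eq_iInf_iff_real_inner_le_zero`); it is `1`-Lipschitz.
The map `x ↦ P x - D (P x)` is continuous and bounded, so it has a fixed point `x`
(`Crest.Agent.R74.brouwer`, transported to `EuclideanSpace`); `T = P x` works.
`exists_pos`: choose `0 < ε < 1` with `(1 + C ε)/(n+1) < 1/n` (replace `C` by `|C|`), let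
`K = {T | (T - ε 1).PosSemidef ∧ trace T = n}` (compact, convex, nonempty, inside `PosDef`), viewed in
`EuclideanSpace ℝ (Fin n × Fin n)`, `D T = S T - (1/n) 1` (symmetric, trace `0`).  Let `T` solve the
variational inequality and let `u i` be an orthonormal eigenbasis of `T`
(`Matrix.IsHermitian.eigenvectorBasis`), eigenvalues `λ i ≥ ε` with sum `n`, `d i = u i ⬝ D u i`, `∑ d i = 0`.
If `λ i > ε`, testing with `T' = T - δ u i u iᵀ + δ v vᵀ ∈ K` gives `d i ≤ v ⬝ D v` for all unit `v`.
If `λ i = ε` then `d i < 0` by hypothesis.  Some `λ i₀ > ε`.  If `d i₀ < 0` then all `d i < 0`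
(for `λ i > ε`, `d i ≤ d i₀`), contradiction.  So `D` is positive semidefinite with trace `0`, i.e. `D = 0`
(`Matrix.PosSemidef.trace_eq_zero_iff`).
-/

set_option autoImplicit false
set_option linter.unusedSectionVars false
set_option linter.unusedVariables false

namespace Crest.Agent.R230

open MeasureTheory Metric Set Filter Topology
open scoped RealInnerProductSpace ENNReal Pointwise

variable {n : ℕ} [NeZero n]

open Matrix

theorem exists_vi {κ : Type} [Fintype κ] {K : Set (EuclideanSpace ℝ κ)} (hK : IsCompact K)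
    (hc : Convex ℝ K) (hne : K.Nonempty) {D : EuclideanSpace ℝ κ → EuclideanSpace ℝ κ}
    (hD : ContinuousOn D K) : ∃ T ∈ K, ∀ T' ∈ K, 0 ≤ ⟪D T, T' - T⟫ := by
  choose P hP1 hP2 using exists_norm_eq_iInf_of_complete_convex hne hK.isComplete hc
  have hP3 : ∀ u, ∀ w ∈ K, ⟪u - P u, w - P u⟫ ≤ 0 := fun u =>
    (norm_eq_iInf_iff_real_inner_le_zero hc (hP1 u)).1 (hP2 u)
  have hPl : LipschitzWith 1 P := by
    refine LipschitzWith.of_dist_le_mul fun x y => ?_
    rw [NNReal.coe_one, one_mul, dist_eq_norm, dist_eq_norm]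
    have h1 := hP3 x _ (hP1 y)
    have h2 := hP3 y _ (hP1 x)
    have h3 : ‖P x - P y‖ ^ 2 ≤ ⟪x - y, P x - P y⟫ := by
      have e1 : ⟪x - y, P x - P y⟫ - ‖P x - P y‖ ^ 2 =
          -⟪x - P x, P y - P x⟫ - ⟪y - P y, P x - P y⟫ := by
        rw [← real_inner_self_eq_norm_sq, ← inner_sub_left, ← inner_neg_right, neg_sub,
          ← inner_sub_left]
        congr 1
        abel
      linarith
    have h4 := real_inner_le_norm (x - y) (P x - P y)
    by_contra hn
    have h5 := not_le.1 hn
    nlinarith [norm_nonneg (x - y)]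
  have hg : ContinuousOn (fun T => T - D T) K := continuousOn_id.sub hD
  obtain ⟨C, hC⟩ := hK.exists_bound_of_continuousOn hg
  have hF : Continuous fun x => P x - D (P x) := hg.comp_continuous hPl.continuous hP1
  let e := EuclideanSpace.equiv κ ℝ
  obtain ⟨w, hw⟩ := Crest.Agent.R74.brouwer
    (h := fun w => e (P (e.symm w) - D (P (e.symm w))))
    (e.continuous.comp (hF.comp e.symm.continuous)) (C := ‖(e : EuclideanSpace ℝ κ →L[ℝ] κ → ℝ)‖ * C)
    fun w => ((e : EuclideanSpace ℝ κ →L[ℝ] κ → ℝ).le_opNorm _).trans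
      (mul_le_mul_of_nonneg_left (hC _ (hP1 _)) (norm_nonneg _))
  have hx : P (e.symm w) - D (P (e.symm w)) = e.symm w := by
    rw [← e.symm_apply_apply (P (e.symm w) - D (P (e.symm w)))]
    exact congrArg e.symm hw
  refine ⟨P (e.symm w), hP1 _, fun T' hT' => ?_⟩
  have h1 := hP3 (e.symm w) T' hT'
  have h2 : e.symm w - P (e.symm w) = -D (P (e.symm w)) := by
    rw [sub_eq_iff_eq_add, neg_add_eq_sub]
    exact hx.symm
  rw [h2, inner_neg_left] at h1
  linarith

end Crest.Agent.R230
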